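import Vale.Agent.P011UW5.Ski
import Vale.Agent.P011.W.SukAll
import Vale.Agent.P011.H308.C2.Sym
import Vale.Agent.P011.H271.PlaceK

/-!
The reduced unitary Whitehead group of a division algebra over a global field is trivial.
-/

open Module
open scoped commutatorElement

set_option linter.style.haveILetI false
set_option linter.unusedSectionVars false

namespace Vale.Agent.P011UW5

open Vale.Agent.P011 Vale.Agent.P011L Vale.Agent.P011UW Vale.Agent.P011.H738
open Vale.Agent.P011.H308.C2

section

variable (D : Type) [DivisionRing D] [StarRing D]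

/-- The group generated by the symmetric elements. -/
def Sg : Subgroup Dˣ := Subgroup.closure {s | star (s : D) = s}

variable {D}

theorem mem_Sg {s : Dˣ} (h : star (s : D) = s) : s ∈ Sg D := Subgroup.subset_closure h

instance : (Sg D).Normal := ⟨fun n hn g => by
  have hg : star (g : D) ≠ 0 := star_ne_zero.2 g.ne_zero
  induction hn using Subgroup.closure_induction with
  | mem s hs =>
    have h1 : g * s * Units.mk0 _ hg ∈ Sg D := mem_Sg (by
      rw [Units.val_mul, Units.val_mul, Units.val_mk0, star_mul, star_mul, star_star, hs,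
        mul_assoc])
    have h2 : g * Units.mk0 _ hg ∈ Sg D := mem_Sg (by
      rw [Units.val_mul, Units.val_mk0, star_mul, star_star])
    have h3 := mul_mem h1 (inv_mem h2)
    rwa [mul_inv_rev, ← mul_assoc, mul_inv_cancel_right] at h3
  | one => simp
  | mul a b _ _ ha hb =>
    have h3 := mul_mem ha hb
    rwa [mul_assoc, ← mul_assoc g⁻¹, ← mul_assoc g⁻¹, inv_mul_cancel, one_mul, ← mul_assoc,
      mul_assoc g] at h3
  | inv a _ ha =>
    have h3 := inv_mem ha
    rwa [mul_inv_rev, mul_inv_rev, inv_inv, ← mul_assoc] at h3⟩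

/-- Two elements with a symmetric difference commute in the quotient. -/
theorem comm_sub {x y : Dˣ} (h : star ((y : D) - x) = y - x) :
    Commute (x : Dˣ ⧸ Sg D) (y : Dˣ ⧸ Sg D) := by
  by_cases h0 : (y : D) - x = 0
  · rw [Units.ext (sub_eq_zero.1 h0)]
  let t : Dˣ := Units.mk0 _ h0
  have ht : (t : Dˣ ⧸ Sg D) = 1 := (QuotientGroup.eq_one_iff _).2 (mem_Sg h)
  have h1 : x⁻¹ * y * t⁻¹ = t⁻¹ * (y * x⁻¹) := by
    have h2 : t * (x⁻¹ * y) = y * x⁻¹ * t := by
      apply Units.ext
      simp only [Units.val_mul, t, Units.val_mk0, sub_mul, mul_sub, mul_assoc, Units.inv_mul,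
        Units.mul_inv_cancel_left, mul_one]
    rw [eq_inv_mul_iff_mul_eq, ← mul_assoc, h2, mul_inv_cancel_right]
  have h3 := congrArg (QuotientGroup.mk (s := Sg D)) h1
  simp only [QuotientGroup.mk_mul, QuotientGroup.mk_inv, ht, inv_one, mul_one, one_mul] at h3
  exact Commute.inv_left_iff.1 h3

end

section

variable {k C D : Type} [Field k] [Field C] [StarRing C] [DivisionRing D] [StarRing D]
  [Algebra k C] [Algebra k D] [Algebra C D] [IsScalarTower k C D] [StarModule C D] {d : ℕ}

/-- Representatives of the classes. -/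
theorem exists_rep (hA : Anis k C D d) (hd : d ≠ 0) {c : C} (hc : star c ≠ c) (x : Dˣ) :
    (x : Dˣ ⧸ Sg D) = 1 ∨ ∃ y : Dˣ, (x : Dˣ ⧸ Sg D) = y ∧
      star ((y : D) - c • 1) = y - c • 1 := by
  haveI := fin_kDG hA hd
  let W := symG (D := D) hA.fixed
  let L : (W × W × k) →ₗ[k] D := (LinearMap.mulLeft k (x : D) ∘ₗ W.subtype).coprod
    (W.subtype.coprod (LinearMap.toSpanSingleton k D (c • 1)))
  have h1 : LinearMap.ker L ≠ ⊥ := LinearMap.ker_ne_bot_of_finrank_lt (by
    rw [finrank_prod, finrank_prod, finrank_self, ← finrank_symG (D := D) hA.fixed hA.star_ne]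
    change 2 * finrank k W < _
    omega)
  obtain ⟨⟨t, s, a⟩, h2, h3⟩ := Submodule.exists_mem_ne_zero_of_ne_bot h1
  have h4 : (x : D) * t + ((s : D) + a • c • (1 : D)) = 0 := h2
  have hs : star (s : D) = s := s.2
  have ht : star (t : D) = t := t.2
  have ht0 : (t : D) ≠ 0 := by
    intro e
    rw [e, mul_zero, zero_add, smul_comm] at h4
    obtain ⟨h5, h6⟩ := sym_unique hA.fixed hc hs (by rw [star_smulk hA.fixed, star_one]) h4
    exact h3 (Prod.ext (Subtype.ext e) (Prod.ext (Subtype.ext h5)
      ((smul_eq_zero.1 h6).resolve_right one_ne_zero)))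
  by_cases ha : a = 0
  · left
    rw [ha, zero_smul, add_zero] at h4
    have h5 : x * Units.mk0 _ ht0 ∈ Sg D := mem_Sg (by
      rw [Units.val_mul, Units.val_mk0, eq_neg_of_add_eq_zero_left h4, star_neg, hs])
    exact (QuotientGroup.eq_one_iff _).2
      ((Subgroup.mul_mem_cancel_right _ (mem_Sg (s := Units.mk0 _ ht0) ht)).1 h5)
  · right
    have h5 : -a⁻¹ • (t : D) ≠ 0 := smul_ne_zero (neg_ne_zero.2 (inv_ne_zero ha)) ht0
    have h6 : ((Units.mk0 _ h5 : Dˣ) : Dˣ ⧸ Sg D) = 1 := (QuotientGroup.eq_one_iff _).2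
      (mem_Sg (by rw [Units.val_mk0, star_smulk hA.fixed, ht]))
    refine ⟨x * Units.mk0 _ h5, by rw [QuotientGroup.mk_mul, h6, mul_one], ?_⟩
    have h7 : (x : D) * (-a⁻¹ • (t : D)) - c • 1 = a⁻¹ • (s : D) := by
      rw [mul_smul_comm, eq_neg_of_add_eq_zero_left h4, neg_smul_neg, smul_add, smul_smul,
        inv_mul_cancel₀ ha, one_smul, add_sub_cancel_right]
    rw [Units.val_mul, Units.val_mk0, h7, star_smulk hA.fixed, hs]

/-- **Wall's lemma.** -/
theorem wall (hA : Anis k C D d) (hd : d ≠ 0) (a b : Dˣ ⧸ Sg D) : a * b = b * a := by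
  obtain ⟨c, hc⟩ := hA.star_ne
  obtain ⟨x, rfl⟩ := QuotientGroup.mk_surjective a
  obtain ⟨y, rfl⟩ := QuotientGroup.mk_surjective b
  rcases exists_rep hA hd hc x with h | ⟨x', h, h1⟩
  · rw [h, one_mul, mul_one]
  rcases exists_rep hA hd hc y with h' | ⟨y', h', h2⟩
  · rw [h', one_mul, mul_one]
  rw [h, h']
  refine comm_sub ?_
  rw [← sub_sub_sub_cancel_right _ _ (c • (1 : D)), star_sub, h1, h2]

end

/-- The involution of the centre. -/
theorem exists_star (C D : Type) [Field C] [DivisionRing D] [StarRing D] [Algebra C D]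
    [Algebra.IsCentral C D] :
    ∃ _ : StarRing C, ∀ c : C, star (algebraMap C D c) = algebraMap C D (star c) := by
  have h1 : ∀ c : C, ∃ c', algebraMap C D c' = star (algebraMap C D c) := fun c =>
    Algebra.mem_bot.1 (Algebra.IsCentral.out (Subalgebra.mem_center_iff.2 fun y => by
      rw [← star_star y, ← star_mul, ← star_mul, Algebra.commutes]))
  choose s hs using h1
  have hi := (algebraMap C D).injective
  exact ⟨{ star := s
           star_involutive := fun c => hi (by rw [hs, hs, star_star])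
           star_mul := fun a b => hi (by rw [hs, map_mul, map_mul, hs, hs, star_mul])
           star_add := fun a b => hi (by rw [hs, map_add, map_add, hs, hs, star_add]) },
    fun c => (hs c).symm⟩

/-- **The reduced unitary Whitehead group is trivial.** -/
theorem usk (hS : SKI) : USK := by
  intro k D K _ _ _ _ _ _ d f hk h0 hs hst ⟨c, hc, hc'⟩ H hH u hu
  obtain ⟨C, _, _, _, _, _, g, _, _, _, hD, hg⟩ := exists_cen k f h0 hs
  obtain ⟨_, hC⟩ := exists_star C D
  have hi := (algebraMap C D).injective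
  haveI : StarModule C D := ⟨fun a x => by
    rw [Algebra.smul_def, star_mul, hC, Algebra.smul_def, Algebra.commutes]⟩
  have hne : ∃ x : C, star x ≠ x := by
    obtain ⟨x, rfl⟩ := Algebra.mem_bot.1 (Algebra.IsCentral.out (K := C)
      (Subalgebra.mem_center_iff.2 hc))
    exact ⟨x, fun e => hc' (by rw [hC, e])⟩
  let k0 : IntermediateField k C :=
    { carrier := {x | star x = x}
      mul_mem' := fun {a b} ha hb => (star_mul' a b).trans (congrArg₂ _ ha hb)
      add_mem' := fun {a b} ha hb => (star_add a b).trans (congrArg₂ _ ha hb)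
      algebraMap_mem' := fun a => hi (by
        rw [← hC, ← IsScalarTower.algebraMap_apply, Algebra.algebraMap_eq_smul_one, hst, star_one])
      inv_mem' := fun a ha => (star_inv₀ a).trans (congrArg _ ha) }
  have hA : Anis k0 C D d :=
    ⟨fun x => ⟨fun h => ⟨⟨x, h⟩, rfl⟩, fun ⟨y, h⟩ => h ▸ y.2⟩, hne, inferInstance, inferInstance,
      hD, fun x h => (mul_eq_zero.1 h).elim star_eq_zero.1 id⟩
  refine (Subgroup.closure_le H).2 hH ((QuotientGroup.eq_one_iff (N := Sg D) u).1 ?_)
  rw [← hg, ← hg] at hu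
  letI : CommGroup (Dˣ ⧸ Sg D) :=
    { QuotientGroup.Quotient.group (Sg D) with mul_comm := wall hA h0.ne' }
  rcases glob_fin (L := k0) hk with h | h
  · classical
    haveI : NumberField C := NumberField.of_module_finite k0 C
    haveI : CharZero D := ⟨fun a b e => Nat.cast_injective (R := C)
      (hi (by rw [map_natCast, map_natCast, e]))⟩
    haveI : FiniteDimensional ℚ D := Module.Finite.trans C D
    have h1 := W.suk_all (K := C) (A := Dˣ ⧸ Sg D)
      (fun x : D => if h : x = 0 then 1 else (Units.mk0 x h : Dˣ))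
      (fun a b ha hb => by
        rw [dif_neg ha, dif_neg hb, dif_neg (mul_ne_zero ha hb), Units.mk0_mul]
        rfl)
      (fun s h1 h2 => by
        rw [dif_neg h1]
        exact (QuotientGroup.eq_one_iff _).2 (mem_Sg h2)) hD hne g u.ne_zero hu
    rwa [dif_neg u.ne_zero, Units.mk0_val] at h1
  · haveI := H271.gff_of_isGlobal h
    obtain ⟨w, y, hw, hy, h1, h2, h3⟩ := exists_sym_factorG hA h0.ne' g u.ne_zero hu
    have h4 : u = Units.mk0 w hw * Units.mk0 y hy := Units.ext h3
    have h5 := hS k D K d f hk h0 hs (Units.mk0 w hw) (by rw [← hg]; exact h2)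
    rw [h4, QuotientGroup.mk_mul, (QuotientGroup.eq_one_iff _).2 (mem_Sg (s := Units.mk0 y hy) h1),
      mul_one]
    exact Abelianization.commutator_subset_ker (QuotientGroup.mk' (Sg D)) h5

end Vale.Agent.P011UW5
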