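import Vale.Agent.P011UW.IF
import Vale.Agent.P011UE.Kit
import Vale.Agent.P011.H505.WangB
import Vale.Agent.P011.H268.Nrd

/-!
The reduced Whitehead group of a division algebra over a global field is trivial.
-/

open Module Filter
open scoped commutatorElement

set_option linter.style.haveILetI false

namespace Vale.Agent.P011UW5

open Vale.Agent.P011 Vale.Agent.P011L Vale.Agent.P011UE Vale.Agent.P011UW

theorem glob_fin {k L : Type} [Field k] [Field L] [Algebra k L] [FiniteDimensional k L]
    (h : Glob k) : Glob L := by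
  rcases h with h | ⟨F, _, _, _, h⟩
  · exact .inl (NumberField.of_module_finite k L)
  · letI : Algebra (RatFunc F) L := ((algebraMap k L).comp (algebraMap (RatFunc F) k)).toAlgebra
    haveI : IsScalarTower (RatFunc F) k L := IsScalarTower.of_algebraMap_eq fun _ => rfl
    exact .inr ⟨F, inferInstance, inferInstance, inferInstance,
      FiniteDimensional.trans (RatFunc F) k L⟩

theorem glob_inf {k : Type} [Field k] (h : Glob k) : Infinite k :=
  h.elim (fun _ => .of_injective _ Nat.cast_injective) fun ⟨F, _, _, _, _⟩ => .of_injective _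
    ((algebraMap (RatFunc F) k).injective.comp (RatFunc.algebraMap_injective F))

/-- The centre. -/
theorem exists_cen (k : Type) {D K : Type} [Field k] [DivisionRing D] [Algebra k D]
    [FiniteDimensional k D] [Field K] {d : ℕ} (f : D →+* Matrix (Fin d) (Fin d) K) (hd : 0 < d)
    (hs : Submodule.span K (Set.range f) = ⊤) :
    ∃ (C : Type) (_ : Field C) (_ : Algebra C D) (_ : Algebra k C) (_ : IsScalarTower k C D)
      (_ : Algebra C K) (g : D →ₐ[C] Matrix (Fin d) (Fin d) K), FiniteDimensional k C ∧
      FiniteDimensional C D ∧ Algebra.IsCentral C D ∧ finrank C D = d ^ 2 ∧ ∀ x, g x = f x := by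
  let C := Subring.center D
  letI : Algebra k C := ((algebraMap k D).codRestrict (Subring.center D) fun c =>
    Subring.mem_center_iff.2 fun x => (Algebra.commutes c x).symm).toAlgebra
  haveI : IsScalarTower k C D := IsScalarTower.of_algebraMap_eq fun _ => rfl
  haveI : FiniteDimensional k C :=
    .of_injective (IsScalarTower.toAlgHom k C D).toLinearMap (algebraMap C D).injective
  haveI : FiniteDimensional C D := Module.Finite.of_restrictScalars_finite k C D
  haveI : Algebra.IsCentral C D := ⟨fun x hx => Algebra.mem_bot.2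
    ⟨⟨x, Subring.mem_center_iff.2 (Subalgebra.mem_center_iff.1 hx)⟩, rfl⟩⟩
  have h1 : ∀ c : C, ∃ a : K, Matrix.scalar (Fin d) a = f c := by
    intro c
    have h2 : f c ∈ Set.center (Matrix (Fin d) (Fin d) K) := by
      rw [Semigroup.mem_center_iff]
      intro Y
      have hY : Y ∈ Submodule.span K (Set.range f) := hs ▸ Submodule.mem_top
      induction hY using Submodule.span_induction with
      | mem x hx =>
        obtain ⟨x, rfl⟩ := hx
        rw [← map_mul, ← map_mul, Subring.mem_center_iff.1 c.2 x]
      | zero => rw [zero_mul, mul_zero]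
      | add a b _ _ ha hb => rw [add_mul, mul_add, ha, hb]
      | smul c a _ ha => rw [smul_mul_assoc, mul_smul_comm, ha]
    rwa [Matrix.center_eq_range] at h2
  choose φ hφ using h1
  haveI : Nonempty (Fin d) := ⟨⟨0, hd⟩⟩
  have hi : Function.Injective (Matrix.scalar (Fin d) : K →+* Matrix (Fin d) (Fin d) K) :=
    RingHom.injective _
  let ψ : C →+* K :=
    { toFun := φ
      map_one' := hi (by rw [hφ, map_one]; exact map_one f)
      map_mul' := fun a b => hi (by rw [map_mul, hφ, hφ, hφ]; exact map_mul f _ _)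
      map_zero' := hi (by rw [hφ, map_zero]; exact map_zero f)
      map_add' := fun a b => hi (by rw [map_add, hφ, hφ, hφ]; exact map_add f _ _) }
  letI : Algebra C K := ψ.toAlgebra
  let g : D →ₐ[C] Matrix (Fin d) (Fin d) K := { f with commutes' := fun c => (hφ c).symm }
  refine ⟨C, inferInstance, inferInstance, inferInstance, inferInstance, inferInstance, g,
    inferInstance, inferInstance, inferInstance, ?_, fun _ => rfl⟩
  let b := finBasis C D
  have h3 := P011S.SF.split_indep hd g b b.linearIndependent
  have h4 : Submodule.span K (Set.range fun i => g (b i)) = ⊤ := by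
    rw [eq_top_iff, ← hs, Submodule.span_le]
    rintro _ ⟨x, rfl⟩
    change g x ∈ _
    rw [← b.sum_repr x, map_sum]
    refine Submodule.sum_mem _ fun i _ => ?_
    rw [map_smul, ← algebraMap_smul K]
    exact Submodule.smul_mem _ _ (Submodule.subset_span ⟨i, rfl⟩)
  have h5 := finrank_eq_card_basis (Basis.mk h3 h4.ge)
  rw [Fintype.card_fin, Module.finrank_matrix, Fintype.card_fin, Module.finrank_self, mul_one] at h5
  rw [← h5, pow_two]

/-- If the commutators are central, then the division ring is commutative. -/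
theorem comm_of {D : Type} [DivisionRing D]
    (h : ∀ x ∈ commutator Dˣ, ∀ y : D, (x : D) * y = y * x) (a c : D) : c * a = a * c := by
  by_contra hne
  have ha : a ≠ 0 := by rintro rfl; simp at hne
  have hc : c ≠ 0 := by rintro rfl; simp at hne
  have hb : a - 1 ≠ 0 := by
    intro e
    rw [sub_eq_zero] at e
    simp [e] at hne
  have h1 : ∀ (z : D) (hz : z ≠ 0) (y : D), z⁻¹ * c * z * c⁻¹ * y = y * (z⁻¹ * c * z * c⁻¹) := by
    intro z hz y
    have h2 := h ⁅(Units.mk0 z hz)⁻¹, Units.mk0 c hc⁆
      (Subgroup.commutator_mem_commutator (Subgroup.mem_top _) (Subgroup.mem_top _)) y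
    simpa [commutatorElement_def] using h2
  set x := a⁻¹ * c * a * c⁻¹ with hx
  set y := (a - 1)⁻¹ * c * (a - 1) * c⁻¹ with hy
  have h3 : a * x = c * a * c⁻¹ := by
    rw [hx, ← mul_assoc, ← mul_assoc, ← mul_assoc, mul_inv_cancel₀ ha, one_mul]
  have h4 : (a - 1) * y = c * a * c⁻¹ - 1 := by
    rw [hy, ← mul_assoc, ← mul_assoc, ← mul_assoc, mul_inv_cancel₀ hb, one_mul, mul_sub, sub_mul,
      mul_one, mul_inv_cancel₀ hc]
  have h5 : a * (x - y) = 1 - y := by
    rw [sub_mul, one_mul] at h4
    rw [mul_sub, h3, eq_add_of_sub_eq h4]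
    abel
  have hx' := h1 a ha
  have hy' := h1 (a - 1) hb
  rw [← hx] at hx'
  rw [← hy] at hy'
  by_cases e : x - y = 0
  · rw [e, mul_zero, eq_comm, sub_eq_zero] at h5
    rw [← h5, mul_one, sub_left_inj] at h4
    apply hne
    conv_rhs => rw [h4]
    rw [inv_mul_cancel_right₀ hc]
  · apply hne
    refine mul_right_cancel₀ e ?_
    rw [mul_assoc, h5, mul_assoc, mul_sub c x y, ← hx' c, ← hy' c, ← sub_mul, ← mul_assoc, h5,
      mul_sub, sub_mul, hy' c, mul_one, one_mul]

/-- The central case. -/
theorem ski_cen (hC : CORE) (hN : NST) (hd : DENS) (hA : RAM) {C D K : Type} [Field C]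
    [DivisionRing D] [Algebra C D] [FiniteDimensional C D] [Algebra.IsCentral C D] [Field K]
    [Algebra C K] {d : ℕ} (hk : Glob C) (h0 : 0 < d) (hD : finrank C D = d ^ 2)
    (g : D →ₐ[C] Matrix (Fin d) (Fin d) K) (u : Dˣ) (hu : (g u).det = 1) :
    u ∈ commutator Dˣ := by
  classical
  haveI := glob_inf hk
  rcases (show d = 1 ∨ 2 ≤ d by omega) with rfl | h2
  · have h1 : g u = g 1 := by
      rw [map_one]
      ext i j
      rw [Matrix.det_fin_one] at hu
      rw [Subsingleton.elim i 0, Subsingleton.elim j 0, hu, Matrix.one_apply_eq]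
    have h3 : u = 1 := Units.ext ((g : D →+* Matrix (Fin 1) (Fin 1) K).injective h1)
    rw [h3]
    exact one_mem _
  choose ν hν using fun x : D => H268.exists_nrd h0 hD g x
  have hi := (algebraMap C K).injective
  let N : D →* C :=
    { toFun := ν
      map_one' := hi (by rw [← hν, map_one, map_one, Matrix.det_one])
      map_mul' := fun x y => hi (by rw [← hν, map_mul, map_mul, Matrix.det_mul, hν, hν]) }
  have h : Dv C D d N := ⟨hk, inferInstance, h2, hD, fun x => H505.Wang.hasNrd_of_det hD g (hν x)⟩
  have hle : commutator Dˣ ≤ G1 N :=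
    Subgroup.commutator_le.2 fun a _ b _ => comm_mem N a b
  have hQ : NN N (commutator Dˣ) := by
    refine ⟨hle, fun a _ x hx => Subgroup.Normal.conj_mem inferInstance x hx a, ?_⟩
    by_contra! h3
    have h4 : Function.Surjective (Algebra.linearMap C D) := fun x =>
      Algebra.mem_bot.1 (Algebra.IsCentral.out
        (Subalgebra.mem_center_iff.2 fun y => comm_of h3 x y))
    have h5 := LinearMap.finrank_le_finrank_of_surjective h4
    rw [hD, finrank_self] at h5
    nlinarith
  obtain ⟨h3, h4⟩ := hA C D d N h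
  obtain ⟨v, hv⟩ := Infinite.exists_notMem_finset h3.toFinset
  rw [Set.Finite.mem_toFinset, Set.mem_ofPred_eq, not_not] at hv
  have h5 := hC C D d N h {v} (Finset.singleton_nonempty v) _ inferInstance hle
    (hN C D d N h _ hQ) (Eventually.of_forall fun p =>
      Subgroup.commutator_mem_commutator (Subgroup.mem_top _) (Subgroup.mem_top _))
  have hu1 : u ∈ G1 N := mem_G1.2 (hi (by
    change algebraMap C K (ν u) = _
    rw [← hν, hu, map_one]))
  obtain ⟨q, hq, -, h6⟩ := hd C D d N h _ hQ ∅ v (Finset.notMem_empty v) hv u hu1 _ univ_mem _ h5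
  exact (Subgroup.mul_mem_cancel_left _ (inv_mem hq)).1 (h6 (mul_mem (inv_mem (hle hq)) hu1))

/-- **The reduced Whitehead group is trivial.** -/
theorem ski (hC : CORE) (hN : NST) (hd : DENS) (hA : RAM) : SKI := by
  intro k D K _ _ _ _ _ d f hk h0 hs u hu
  obtain ⟨C, _, _, _, _, _, g, _, _, _, hD, hg⟩ := exists_cen k f h0 hs
  exact ski_cen hC hN hd hA (glob_fin hk) h0 hD g u (by rw [hg]; exact hu)

end Vale.Agent.P011UW5
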